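import Vale.Agent.P106.R.H428.RG0Seq
import Vale.Agent.P106.R.E.RG

/-!
# P106 / R, copy of P122 / H428 : the literal statement `E.RG0`
-/

set_option autoImplicit false

namespace Vale.Agent.P106.R.H428

open Vale.Agent.P106.R.C2 Finset Filter Topology Vale.Agent.P127.U Vale.Agent.P106.R.H610

/-- **RG0** of `E/RG.lean` -/
theorem rg0_lit {p : ℝ} (hp : 1 ≤ p) : Vale.Agent.P106.R.E.RG0 p := by
  intro K C δ hK hC hδ
  obtain ⟨A, hA1, hA⟩ := rg0_poly hp K hK C hC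
  obtain ⟨n0, hn0⟩ := hA δ hδ
  refine ⟨n0, fun Z Λ Q X hZC hn hΛ hQ hX hviol => ?_⟩
  subst hZC
  have hch : ∀ i : ℕ, ∃ (V : Val) (a : ℕ → ℝ) (J : ℕ → ℕ) (ρ : ℝ), V.X.Nonempty ∧
      (∀ x ∈ V.X, 0 ≤ x.T ∧ x.T < 2 ^ (2 * K * Z.n i)) ∧
        0 < ρ ∧ ρ ≤ 1 ∧ 1 ≤ A * ((Z.n i : ℝ) + 1) ^ A * ρ ∧ V.Ok (Z.F i) ρ a J ∧
        2 ^ (δ * (K * Z.n i)) * rt p (Λ i) * 2 ^ (4 * K * Z.n i) * Q i ≤
          A * ((Z.n i : ℝ) + 1) ^ A * (V.X.card * pw p (a 0)) := by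
    intro i
    obtain ⟨V, a, J, ρ, h1, h2, -, h4, h5, h6, h7, h8, -, -⟩ :=
      hn0 (Z.n i) (hn i) (Z.F i) (Λ i) (Q i) (hΛ i) (hQ i) (X i) (hX i) (hviol i)
    exact ⟨V, a, J, ρ, h2, fun x hx => (hX i x (h1 hx)).2, h4, h5, h6, h7, h8⟩
  choose V a J ρ h1 h2 h3 h4 h5 h6 h7 using hch
  refine ⟨{ V := V, ρ := ρ, a := a, J := J, ok := h6, ne := h1, tim := h2, ρpos := h3, ρ1 := h4, ρbig := ?_ }, ?_⟩
  · intro ε hε
    filter_upwards [Z.ntop.eventually (poly_ev A hε)] with i hi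
    have hpos : (0:ℝ) < 2 ^ (ε * Z.n i) := by positivity
    rw [Real.rpow_neg (by norm_num), inv_le_iff_one_le_mul₀ hpos]
    calc (1:ℝ) ≤ A * ((Z.n i : ℝ) + 1) ^ A * ρ i := h5 i
      _ ≤ 2 ^ (ε * Z.n i) * ρ i := mul_le_mul_of_nonneg_right hi (h3 i).le
      _ = _ := by ring
  · intro ε hε
    show ∀ᶠ i in (uf : Filter ℕ), (2 : ℝ) ^ ((δ - ε) * (K * Z.n i)) * rt p (Λ i) * 2 ^ (4 * K * Z.n i) * Q i ≤
      (V i).X.card * pw p (a i 0)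
    have hKpos : (0:ℝ) < K := by exact_mod_cast hK
    filter_upwards [Z.ntop.eventually (poly_ev A (ε := ε * K) (by positivity))] with i hi
    have hpos : (0:ℝ) < 2 ^ (ε * (K * Z.n i)) := by positivity
    have e1 : (2:ℝ) ^ (δ * (K * Z.n i)) = 2 ^ (ε * (K * Z.n i)) * 2 ^ ((δ - ε) * (K * Z.n i)) := by
      rw [← Real.rpow_add (by norm_num)]
      congr 1
      ring
    have e2 := h7 i
    rw [e1] at e2
    have e3 : (A : ℝ) * ((Z.n i : ℝ) + 1) ^ A ≤ 2 ^ (ε * (K * Z.n i)) := by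
      rw [← mul_assoc]
      exact hi
    have ha : 0 ≤ ((V i).X.card : ℝ) * pw p (a i 0) :=
      mul_nonneg (Nat.cast_nonneg _) (pw_nonneg p ((h6 i).apos 0 (Nat.zero_le K)).le)
    have e4 := e2.trans (mul_le_mul_of_nonneg_right e3 ha)
    refine le_of_mul_le_mul_left ?_ hpos
    calc (2:ℝ) ^ (ε * (K * Z.n i)) * ((2 : ℝ) ^ ((δ - ε) * (K * Z.n i)) * rt p (Λ i) * 2 ^ (4 * K * Z.n i) * Q i)
        = (2:ℝ) ^ (ε * (K * Z.n i)) * 2 ^ ((δ - ε) * (K * Z.n i)) * rt p (Λ i) * 2 ^ (4 * K * Z.n i) * Q i := by ring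
      _ ≤ _ := e4

end Vale.Agent.P106.R.H428
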