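import Vale.Agent.P106.R.H428.V0

/-!
# P106 / R / H428 : polynomial losses of the first valid structure
-/

set_option autoImplicit false

namespace Vale.Agent.P106.R.H428

open Vale.Agent.P106.R.C2 Finset Filter Topology

variable {C : ℝ} {n K : ℕ}

/-- polynomials are eventually smaller than exponentials -/
theorem poly_exp (B : ℝ) (k : ℕ) {r : ℝ} (hr : 1 < r) : ∀ᶠ n : ℕ in atTop, B * ((n : ℝ) + 1) ^ k ≤ r ^ n := by
  have h1 := tendsto_pow_const_div_const_pow_of_one_lt k hr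
  have h2 := h1.comp (tendsto_add_atTop_nat 1)
  have hr0 : 0 < r := by linarith
  have h3 : ∀ᶠ n : ℕ in atTop, (((n + 1 : ℕ) : ℝ) ^ k / r ^ (n + 1)) < 1 / ((|B| + 1) * r) :=
    h2.eventually (gt_mem_nhds (by positivity))
  filter_upwards [h3] with n hn
  rw [div_lt_div_iff₀ (by positivity) (by positivity), one_mul, pow_succ r] at hn
  push_cast at hn
  have h4 : ((n : ℝ) + 1) ^ k * (|B| + 1) ≤ r ^ n := by
    have h5 : ((n : ℝ) + 1) ^ k * (|B| + 1) * r ≤ r ^ n * r := by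
      calc ((n : ℝ) + 1) ^ k * (|B| + 1) * r = ((n : ℝ) + 1) ^ k * ((|B| + 1) * r) := by ring
        _ ≤ r ^ n * r := hn.le
    exact le_of_mul_le_mul_right h5 hr0
  have h6 : B * ((n : ℝ) + 1) ^ k ≤ ((n : ℝ) + 1) ^ k * (|B| + 1) := by
    have h7 : B ≤ |B| + 1 := (le_abs_self B).trans (by linarith)
    have h8 : (0:ℝ) ≤ ((n : ℝ) + 1) ^ k := by positivity
    nlinarith
  exact h6.trans h4

theorem nq_le (C : ℝ) (n K : ℕ) : nq C n K ≤ (K * Nat.clog 2 ⌈2 * C ^ 2⌉₊ + 9 * K + 1) * (n + 1) := by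
  unfold nq
  nlinarith [Nat.zero_le (K * Nat.clog 2 ⌈2 * C ^ 2⌉₊ * n), Nat.zero_le n]

theorem loss_le (C : ℝ) (n K : ℕ) : ((nq C n K * (2 * n + 1) : ℕ) : ℝ) ^ K * nq C n K ≤
    ((2 * (K * Nat.clog 2 ⌈2 * C ^ 2⌉₊ + 9 * K + 1) : ℕ) : ℝ) ^ (K + 1) * ((n : ℝ) + 1) ^ (2 * K + 1) := by
  set A : ℕ := K * Nat.clog 2 ⌈2 * C ^ 2⌉₊ + 9 * K + 1 with hA
  have h1 := nq_le C n K
  rw [← hA] at h1
  have h2 : nq C n K * (2 * n + 1) ≤ (2 * A) * (n + 1) ^ 2 := by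
    calc nq C n K * (2 * n + 1) ≤ (A * (n + 1)) * (2 * (n + 1)) := Nat.mul_le_mul h1 (by omega)
      _ = (2 * A) * (n + 1) ^ 2 := by ring
  have h3 : nq C n K ≤ (2 * A) * (n + 1) := h1.trans (Nat.mul_le_mul_right _ (by omega))
  have h4 : (nq C n K * (2 * n + 1)) ^ K * nq C n K ≤ (2 * A) ^ (K + 1) * (n + 1) ^ (2 * K + 1) := by
    calc (nq C n K * (2 * n + 1)) ^ K * nq C n K ≤ ((2 * A) * (n + 1) ^ 2) ^ K * ((2 * A) * (n + 1)) :=
          Nat.mul_le_mul (Nat.pow_le_pow_left h2 K) h3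
      _ = (2 * A) ^ (K + 1) * (n + 1) ^ (2 * K + 1) := by
          rw [mul_pow, ← pow_mul, pow_succ (2 * A) K, pow_succ (n + 1) (2 * K)]
          ring
  exact_mod_cast h4

end Vale.Agent.P106.R.H428
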