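import Vale.Agent.P106.R.H428.RG0
import Vale.Agent.P106.R.H610.Seq

/-!
# P106 / R, copy of P122 / H428 : the first sequence of valid structures of a violation (RG0)

* `rg0_poly` : finite form with polynomial losses (constants depend on `K, C` only).
-/

set_option autoImplicit false

namespace Vale.Agent.P106.R.H428

open Vale.Agent.P106.R.C2 Finset Filter Topology Vale.Agent.P127.U Vale.Agent.P106.R.H610

/-- **RG0, finite form with polynomial losses** -/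
theorem rg0_poly {p : ℝ} (hp : 1 ≤ p) (K : ℕ) (hK : 1 ≤ K) (C : ℝ) (hC : 1 ≤ C) :
    ∃ A : ℕ, 1 ≤ A ∧ ∀ δ : ℝ, 0 < δ → ∃ n0 : ℕ, ∀ n, n0 ≤ n → ∀ (F : Amp C n K) (Λ Q : ℝ), KTop F Λ →
      (∀ U : Finset Nd, ∑ S ∈ U, F.a K S ^ 2 ≤ Q) →
      ∀ X : Finset Nd, (∀ x ∈ X, x.τ = 0 ∧ 0 ≤ x.T ∧ x.T < 2 ^ (2 * K * n)) →
      2 ^ (δ * (K * n)) * rt p Λ * 2 ^ (4 * K * n) * Q < ∑ x ∈ X, pw p (F.a 0 x) →
      ∃ (V : Val) (a : ℕ → ℝ) (J : ℕ → ℕ) (ρ : ℝ), V.X ⊆ X ∧ V.X.Nonempty ∧ (∀ i σ, V.G i σ ⊆ kids n σ.τ) ∧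
        0 < ρ ∧ ρ ≤ 1 ∧ 1 ≤ A * ((n : ℝ) + 1) ^ A * ρ ∧ V.Ok F ρ a J ∧
        2 ^ (δ * (K * n)) * rt p Λ * 2 ^ (4 * K * n) * Q ≤ A * ((n : ℝ) + 1) ^ A * (V.X.card * pw p (a 0)) ∧
        (∃ b : ℝ, 0 < b ∧ ∀ i, i ≤ K → b ≤ a i ∧ a i ≤ b * 2 ^ (A * (n + 1))) ∧
        (V.X.card : ℝ) ≤ 2 ^ (A * (n + 1)) := by
  set A : ℕ := K * Nat.clog 2 ⌈2 * C ^ 2⌉₊ + 9 * K + 1 with hA
  set B : ℕ := Nat.clog 2 ⌈cx C K⌉₊ with hB
  have hKpos : (0:ℝ) < K := by exact_mod_cast hK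
  refine ⟨32 * (2 * A) ^ (K + 1) + (2 * K + 1) + A + B, by omega, fun δ hδ => ?_⟩
  set A' : ℕ := 32 * (2 * A) ^ (K + 1) + (2 * K + 1) + A + B with hA'
  have hr' : (1:ℝ) < 2 ^ (δ * K) := Real.one_lt_rpow (by norm_num) (by positivity)
  have hev' := poly_exp (2 * cx C K) 0 hr'
  obtain ⟨n0, hn0⟩ := Filter.eventually_atTop.1 hev'
  refine ⟨n0, ?_⟩
  intro n hn F Λ Q hΛ hQ X hX hviol
  have h2 := hn0 n hn
  obtain ⟨V, a, J, g1, g2, g3, g4, b, g5, g6⟩ := exists_val_top hp F hC hΛ hQ X hX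
  set N : ℝ := ((nq C n K * (2 * n + 1) : ℕ) : ℝ) ^ K with hN
  have hq1 : 1 ≤ nq C n K := by unfold nq; omega
  have hN1 : 1 ≤ N := by
    rw [hN]
    refine one_le_pow₀ ?_
    have : 1 ≤ nq C n K * (2 * n + 1) := Nat.one_le_iff_ne_zero.2 (by positivity)
    exact_mod_cast this
  have hn1 : (1:ℝ) ≤ (n : ℝ) + 1 := by linarith [(Nat.cast_nonneg n : (0:ℝ) ≤ n)]
  have hNq : 32 * (N * nq C n K) ≤ A' * ((n : ℝ) + 1) ^ A' := by
    calc 32 * (N * nq C n K) ≤ 32 * (((2 * A : ℕ) : ℝ) ^ (K + 1) * ((n : ℝ) + 1) ^ (2 * K + 1)) :=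
          mul_le_mul_of_nonneg_left (loss_le C n K) (by norm_num)
      _ = ((32 * (2 * A) ^ (K + 1) : ℕ) : ℝ) * ((n : ℝ) + 1) ^ (2 * K + 1) := by push_cast; ring
      _ ≤ _ := by
          refine mul_le_mul ?_ (pow_le_pow_right₀ hn1 (by rw [hA']; omega)) (by positivity) (by positivity)
          exact_mod_cast (by rw [hA']; omega : 32 * (2 * A) ^ (K + 1) ≤ A')
  have hq1' : (1:ℝ) ≤ nq C n K := by exact_mod_cast hq1
  have hN2 : 2 * N ≤ A' * ((n : ℝ) + 1) ^ A' := by nlinarith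
  have hQ0 : 0 ≤ Q := by simpa using hQ ∅
  have hΛ0 : 0 ≤ Λ := (sq_nonneg _).trans (a_sq_le_Λ hΛ ⟨0, 0, 0, 0⟩)
  have hr0 : 0 ≤ rt p Λ := rt_nonneg p hΛ0
  have hS0 : 0 ≤ rt p Λ * Q := mul_nonneg hr0 hQ0
  have hδ1 : 2 * cx C K ≤ (2:ℝ) ^ (δ * (K * n)) := by
    have e1 : (2:ℝ) ^ (δ * (K * n)) = (2 ^ (δ * K)) ^ n := by
      rw [← Real.rpow_natCast, ← Real.rpow_mul (by norm_num)]
      congr 1
      ring
    rw [e1]
    simpa using h2
  have h4 : (1:ℝ) ≤ 2 ^ (4 * K * n) := one_le_pow₀ (by norm_num)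
  -- the main term carries half
  have h5 : cx C K * (rt p Λ * Q) ≤
      (1 / 2) * (2 ^ (δ * (K * n)) * rt p Λ * 2 ^ (4 * K * n) * Q) := by
    have e1 : cx C K ≤ (1 / 2) * (2:ℝ) ^ (δ * (K * n)) * 2 ^ (4 * K * n) := by
      have : cx C K ≤ (1 / 2) * (2:ℝ) ^ (δ * (K * n)) := by linarith
      refine this.trans ?_
      have h0 : (0:ℝ) ≤ (1 / 2) * (2:ℝ) ^ (δ * (K * n)) := by positivity
      nlinarith
    calc cx C K * (rt p Λ * Q) ≤
          ((1 / 2) * (2:ℝ) ^ (δ * (K * n)) * 2 ^ (4 * K * n)) * (rt p Λ * Q) :=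
          mul_le_mul_of_nonneg_right e1 hS0
      _ = _ := by ring
  have h6 : (1 / 2) * (2 ^ (δ * (K * n)) * rt p Λ * 2 ^ (4 * K * n) * Q) <
      N * nq C n K * ∑ x ∈ V.X, pw p (F.a 0 x) := by linarith
  have ha0 : 0 < a 0 := g3.apos 0 (by omega)
  have hpa : 0 < pw p (a 0) := pw_pos p ha0
  have h7 : ∑ x ∈ V.X, pw p (F.a 0 x) ≤ V.X.card * (16 * pw p (a 0)) := by
    rw [← nsmul_eq_mul]
    refine Finset.sum_le_card_nsmul _ _ _ fun x hx => ?_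
    have := (g3.amp 0 (by omega) x hx).2.le
    exact (pw_mono hp (F.a0 _ _) this).trans (pw_two_mul hp ha0.le)
  have hP0 : 0 ≤ 2 ^ (δ * (K * n)) * rt p Λ * 2 ^ (4 * K * n) * Q := by positivity
  have hne : V.X.Nonempty := by
    rw [Finset.nonempty_iff_ne_empty]
    intro h0
    rw [h0, Finset.sum_empty, mul_zero] at h6
    linarith
  refine ⟨V, a, J, 1 / (2 * N), g1, hne, g2, by positivity, ?_, ?_, g3, ?_, ⟨b, g5, fun i hi => ⟨(g6 i hi).1, ?_⟩⟩, ?_⟩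
  · rw [div_le_one (by positivity)]
    linarith
  · rw [mul_one_div, one_le_div (by positivity)]
    exact hN2
  · have h8 : (1 / 2) * (2 ^ (δ * (K * n)) * rt p Λ * 2 ^ (4 * K * n) * Q) ≤
        (16 * (N * nq C n K)) * (V.X.card * pw p (a 0)) := by
      have h9 : N * nq C n K * ∑ x ∈ V.X, pw p (F.a 0 x) ≤ N * nq C n K * (V.X.card * (16 * pw p (a 0))) :=
        mul_le_mul_of_nonneg_left h7 (by positivity)
      linarith
    have h10 : (16 * (N * nq C n K)) * (V.X.card * pw p (a 0)) ≤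
        (A' * ((n : ℝ) + 1) ^ A' / 2) * (V.X.card * pw p (a 0)) := by
      refine mul_le_mul_of_nonneg_right (by linarith) (by positivity)
    linarith [h8.trans h10]
  · refine (g6 i hi).2.trans (mul_le_mul_of_nonneg_left (pow_le_pow_right₀ (by norm_num) ?_) g5.le)
    refine (nq_le C n K).trans (Nat.mul_le_mul_right _ ?_)
    omega
  · have h15 := card_pos F hC V.X (fun x hx => hX x (g1 hx)) (fun x hx => by
      have := (g3.amp 0 (by omega) x hx).1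
      exact ne_of_gt (lt_of_lt_of_le ha0 this))
    refine h15.trans ?_
    have h16 : cx C K ≤ (2:ℝ) ^ B := by
      calc cx C K ≤ (⌈cx C K⌉₊ : ℝ) := Nat.le_ceil _
        _ ≤ ((2 ^ B : ℕ) : ℝ) := by
            have := Nat.le_pow_clog (b := 2) (by norm_num) ⌈cx C K⌉₊
            rw [← hB] at this
            exact Nat.cast_le.2 this
        _ = _ := by push_cast; ring
    calc cx C K * (2:ℝ) ^ (8 * K * n) ≤
          2 ^ B * 2 ^ (8 * K * n) := by gcongr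
      _ = 2 ^ (B + 8 * K * n) := by rw [pow_add]
      _ ≤ _ := by
          refine pow_le_pow_right₀ (by norm_num) ?_
          have h17 : 8 * K ≤ A := by rw [hA]; omega
          have h18 : A + B ≤ A' := by rw [hA']; omega
          have h19 := Nat.mul_le_mul_right (n + 1) h18
          have h20 := Nat.mul_le_mul_right n h17
          nlinarith [Nat.zero_le (B * n), Nat.zero_le A]

/-- `A (n+1)^A ≤ 2^(ε n)` eventually -/
theorem poly_ev (A : ℕ) {ε : ℝ} (hε : 0 < ε) :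
    ∀ᶠ n : ℕ in atTop, (A : ℝ) * ((n : ℝ) + 1) ^ A ≤ 2 ^ (ε * n) := by
  have hr : (1:ℝ) < 2 ^ ε := Real.one_lt_rpow (by norm_num) hε
  filter_upwards [poly_exp A A hr] with n hn
  refine hn.trans (le_of_eq ?_)
  rw [← Real.rpow_natCast, ← Real.rpow_mul (by norm_num)]

end Vale.Agent.P106.R.H428
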