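import Vale.Agent.P106.R.C.Defs2

/-!
# P106 / R, copy of P122 / H428 : bottom-up typing (the refinement theorem (T) from scratch)

`Rch F lam G d i S` : in the `d` levels below the node `S` of level `i`, every node reached with the child sets `G` has a
positive amplitude which is carried by its child set: `F.a i S ≤ lam * F.A i S (G i (S.sg n))`.

`Vld F lam ℓ G c J d i S` : the same, and all reached edges of level `i` have the label `c i`, all child sets the dyadic size
`2 ^ J i`.

`typing` : for every labelling of the edges by `q` labels there are at most `(q * (2 n + 1)) ^ d` types of nodes, and the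
nodes of each type satisfy `Vld` with child sets, labels and sizes depending on the type only.
-/

set_option autoImplicit false

namespace Vale.Agent.P106.R.H428

open Vale.Agent.P106.R.C2 Finset

variable {C : ℝ} {n K : ℕ}

/-- in the `d` levels below `S` the child sets `G` carry the amplitude -/
def Rch (F : Amp C n K) (lam : ℝ) (G : ℕ → Nd → Finset Z2) : ℕ → ℕ → Nd → Prop
  | 0, _, _ => True
  | d + 1, i, S => 0 < F.a i S ∧ F.a i S ≤ lam * F.A i S (G i (S.sg n)) ∧
      ∀ τ' ∈ G i (S.sg n), Rch F lam G d (i + 1) ((S.sg n).ch F.s n i τ')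

/-- `Rch` with constant labels and dyadic sizes -/
def Vld (F : Amp C n K) (lam : ℝ) {q : ℕ} (ℓ : ℕ → Nd → Z2 → Fin q) (G : ℕ → Nd → Finset Z2) (c : ℕ → Fin q)
    (J : ℕ → ℕ) : ℕ → ℕ → Nd → Prop
  | 0, _, _ => True
  | d + 1, i, S => 0 < F.a i S ∧ F.a i S ≤ lam * F.A i S (G i (S.sg n)) ∧
      2 ^ J i ≤ (G i (S.sg n)).card ∧ (G i (S.sg n)).card < 2 ^ (J i + 1) ∧
      ∀ τ' ∈ G i (S.sg n), ℓ i (S.sg n) τ' = c i ∧ Vld F lam ℓ G c J d (i + 1) ((S.sg n).ch F.s n i τ')

theorem Vld_congr (F : Amp C n K) {lam : ℝ} {q : ℕ} {ℓ : ℕ → Nd → Z2 → Fin q} {G G' : ℕ → Nd → Finset Z2}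
    {c c' : ℕ → Fin q} {J J' : ℕ → ℕ} (d : ℕ) : ∀ (i : ℕ) (S : Nd), (∀ k, i ≤ k → G k = G' k) →
    (∀ k, i ≤ k → c k = c' k) → (∀ k, i ≤ k → J k = J' k) → Vld F lam ℓ G c J d i S → Vld F lam ℓ G' c' J' d i S := by
  induction d with
  | zero => intro i S _ _ _ _; trivial
  | succ d ih =>
    intro i S hG hc hJ h
    obtain ⟨h1, h2, h3, h4, h5⟩ := h
    have e1 := hG i le_rfl
    have e2 := hc i le_rfl
    have e3 := hJ i le_rfl
    refine ⟨h1, by rw [← e1]; exact h2, by rw [← e1, ← e3]; exact h3, by rw [← e1, ← e3]; exact h4, ?_⟩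
    intro τ' hτ
    rw [← e1] at hτ
    obtain ⟨h6, h7⟩ := h5 τ' hτ
    exact ⟨by rw [← e2]; exact h6, ih (i + 1) _ (fun k hk => hG k (by omega)) (fun k hk => hc k (by omega))
      (fun k hk => hJ k (by omega)) h7⟩

/-- sub-additivity over a finite family of disjoint pieces -/
theorem A_sum_le (F : Amp C n K) {i : ℕ} {S : Nd} (hi : i < K) {ι : Type} [Fintype ι] [DecidableEq ι] (G : Finset Z2)
    (f : Z2 → ι) (hG : G.Nonempty) :
    F.A i S G ≤ ∑ u : ι, F.A i S (G.filter fun τ' => f τ' = u) := by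
  classical
  have key : ∀ s : Finset ι, s.Nonempty → F.A i S (G.filter fun τ' => f τ' ∈ s) ≤
      ∑ u ∈ s, F.A i S (G.filter fun τ' => f τ' = u) := by
    intro s hs
    induction hs using Finset.Nonempty.cons_induction with
    | singleton a => simp
    | cons a s ha hs ih =>
      rw [Finset.sum_cons]
      have h1 : G.filter (fun τ' => f τ' ∈ Finset.cons a s ha) =
          G.filter (fun τ' => f τ' = a) ∪ G.filter (fun τ' => f τ' ∈ s) := by
        ext τ
        simp only [Finset.mem_filter, Finset.mem_union, Finset.mem_cons]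
        tauto
      rw [h1]
      refine (F.tri i S _ _ hi ?_).trans (add_le_add le_rfl ih)
      rw [Finset.disjoint_left]
      intro τ h2 h3
      rw [Finset.mem_filter] at h2 h3
      exact ha (h2.2 ▸ h3.2)
  obtain ⟨τ0, _⟩ := hG
  have h2 := key Finset.univ ⟨f τ0, Finset.mem_univ _⟩
  simpa using h2

/-- pigeonhole -/
theorem A_pigeon (F : Amp C n K) {i : ℕ} {S : Nd} (hi : i < K) {ι : Type} [Fintype ι] [DecidableEq ι]
    (G : Finset Z2) (f : Z2 → ι) (hG : G.Nonempty) :
    ∃ u : ι, F.A i S G ≤ Fintype.card ι * F.A i S (G.filter fun τ' => f τ' = u) := by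
  classical
  obtain ⟨τ0, hτ0⟩ := hG
  have : Nonempty ι := ⟨f τ0⟩
  obtain ⟨u, -, hu⟩ := Finset.exists_max_image (Finset.univ : Finset ι)
    (fun u => F.A i S (G.filter fun τ' => f τ' = u)) Finset.univ_nonempty
  refine ⟨u, (A_sum_le F hi G f ⟨τ0, hτ0⟩).trans ?_⟩
  calc ∑ v : ι, F.A i S (G.filter fun τ' => f τ' = v) ≤ ∑ _v : ι, F.A i S (G.filter fun τ' => f τ' = u) :=
        Finset.sum_le_sum fun v _ => hu v (Finset.mem_univ _)
    _ = Fintype.card ι * F.A i S (G.filter fun τ' => f τ' = u) := by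
        rw [Finset.sum_const, nsmul_eq_mul, Finset.card_univ]

theorem A_empty (F : Amp C n K) {i : ℕ} {S : Nd} (hi : i < K) (hS : Cap n i S.τ) : F.A i S ∅ = 0 := by
  refine le_antisymm ?_ (F.A0 _ _ _)
  have := F.L1 i S ∅ hi hS (Finset.empty_subset _)
  simpa using this

theorem kids_card (n : ℕ) (τ : Z2) : (kids n τ).card = 2 ^ (2 * n) := by
  unfold kids
  rw [Fintype.card_piFinset]
  have h : ∀ k, (Finset.Ico ((2:ℤ) ^ n * τ k) (2 ^ n * (τ k + 1))).card = 2 ^ n := by
    intro k
    rw [Int.card_Ico]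
    have : (2:ℤ) ^ n * (τ k + 1) - 2 ^ n * τ k = ((2 ^ n : ℕ) : ℤ) := by push_cast; ring
    rw [this, Int.toNat_natCast]
  simp only [h, Fin.prod_univ_two]
  rw [two_mul, pow_add]

theorem mem_kids {n : ℕ} {τ τ' : Z2} : τ' ∈ kids n τ ↔ ∀ k, 2 ^ n * τ k ≤ τ' k ∧ τ' k < 2 ^ n * (τ k + 1) := by
  unfold kids
  rw [Fintype.mem_piFinset]
  simp only [Finset.mem_Ico]

theorem Cap_kids {n i : ℕ} {τ τ' : Z2} (h : Cap n i τ) (h' : τ' ∈ kids n τ) : Cap n (i + 1) τ' := by
  intro k
  have h1 := mem_kids.1 h' k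
  have h2 := h k
  have h3 : (0:ℤ) < 2 ^ n := by positivity
  refine ⟨le_trans (mul_nonneg h3.le h2.1) h1.1, lt_of_lt_of_le h1.2 ?_⟩
  have h4 : τ k + 1 ≤ 2 ^ (i * n) := h2.2
  calc (2:ℤ) ^ n * (τ k + 1) ≤ 2 ^ n * 2 ^ (i * n) := mul_le_mul_of_nonneg_left h4 h3.le
    _ = 2 ^ ((i + 1) * n) := by rw [← pow_add]; ring_nf

theorem sg_τ (n : ℕ) (S : Nd) : (S.sg n).τ = S.τ := rfl

theorem ch_τ (s : Sl) (n i : ℕ) (σ : Nd) (τ' : Z2) : (σ.ch s n i τ').τ = τ' := rfl

/-- **typing** -/
theorem typing (F : Amp C n K) {lam : ℝ} (hlam : 0 ≤ lam) {q : ℕ} (ℓ : ℕ → Nd → Z2 → Fin q) (G : ℕ → Nd → Finset Z2)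
    (hG : ∀ i σ, G i σ ⊆ kids n σ.τ) (c0 : Fin q) (d : ℕ) : ∀ i, i + d = K → ∃ (ι : Type) (_ : Fintype ι) (_ : DecidableEq ι)
      (typ : Nd → ι) (G' : ι → ℕ → Nd → Finset Z2) (c : ι → ℕ → Fin q) (J : ι → ℕ → ℕ),
      Fintype.card ι ≤ (q * (2 * n + 1)) ^ d ∧ (∀ u i σ, G' u i σ ⊆ G i σ) ∧
      ∀ S, Cap n i S.τ → Rch F lam G d i S →
        Vld F (lam * (q * (2 * n + 1) : ℕ) ^ K) ℓ (G' (typ S)) (c (typ S)) (J (typ S)) d i S := by
  classical
  have hq : 1 ≤ q := le_trans (by omega) (Fin.pos c0)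
  have hM : 1 ≤ q * (2 * n + 1) := Nat.one_le_iff_ne_zero.2 (by positivity)
  induction d with
  | zero =>
    intro i _
    exact ⟨Unit, inferInstance, inferInstance, fun _ => (), fun _ => G, fun _ _ => c0, fun _ _ => 0, by simp,
      fun _ _ _ => subset_rfl, fun S _ _ => trivial⟩
  | succ d ih =>
    intro i hi
    obtain ⟨ι, hι, hι', typ, G', c, J, h1, h2, h3⟩ := ih (i + 1) (by omega)
    have hiK : i < K := by omega
    -- the function on the edges
    let f : Nd → Z2 → Fin q × ι := fun σ τ' => (ℓ i σ τ', typ (σ.ch F.s n i τ'))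
    -- the choice of the best label
    have hch : ∀ S : Nd, ∃ u : Fin q × ι, (G i (S.sg n)).Nonempty →
        F.A i S (G i (S.sg n)) ≤ Fintype.card (Fin q × ι) * F.A i S ((G i (S.sg n)).filter fun τ' => f (S.sg n) τ' = u) := by
      intro S
      by_cases hne : (G i (S.sg n)).Nonempty
      · obtain ⟨u, hu⟩ := A_pigeon F hiK (S := S) (G i (S.sg n)) (f (S.sg n)) hne
        exact ⟨u, fun _ => hu⟩
      · exact ⟨(c0, typ S), fun h => absurd h hne⟩
    choose best hbest using hch
    let Gu : Fin q × ι → Nd → Finset Z2 := fun u σ => (G i σ).filter fun τ' => f σ τ' = u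
    have hGu : ∀ u σ, Gu u σ ⊆ G i σ := fun u σ => Finset.filter_subset _ _
    have hsz : ∀ u σ, Nat.log 2 (Gu u σ).card < 2 * n + 1 := by
      intro u σ
      have h4 : (Gu u σ).card ≤ 2 ^ (2 * n) := by
        rw [← kids_card n σ.τ]
        exact Finset.card_le_card ((hGu u σ).trans (hG i σ))
      have h5 := Nat.log_mono_right (b := 2) h4
      rw [Nat.log_pow (by norm_num)] at h5
      omega
    refine ⟨(Fin q × ι) × Fin (2 * n + 1), inferInstance, inferInstance,
      fun S => (best S, ⟨Nat.log 2 (Gu (best S) (S.sg n)).card, hsz _ _⟩),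
      fun v k => if k = i then Gu v.1 else G' v.1.2 k,
      fun v k => if k = i then v.1.1 else c v.1.2 k,
      fun v k => if k = i then v.2 else J v.1.2 k, ?_, ?_, ?_⟩
    · rw [Fintype.card_prod, Fintype.card_prod, Fintype.card_fin, Fintype.card_fin]
      calc q * Fintype.card ι * (2 * n + 1) ≤ q * (q * (2 * n + 1)) ^ d * (2 * n + 1) := by gcongr
        _ = (q * (2 * n + 1)) ^ (d + 1) := by ring
    · intro v k σ
      by_cases hk : k = i
      · subst hk
        simp only [if_true]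
        exact hGu _ _
      · simp only [if_neg hk]
        exact h2 _ _ _
    · intro S hS hR
      obtain ⟨h4, h5, h6⟩ := hR
      have hne : (G i (S.sg n)).Nonempty := by
        rw [Finset.nonempty_iff_ne_empty]
        intro h0
        rw [h0, A_empty F hiK hS, mul_zero] at h5
        exact absurd h5 (not_le.2 h4)
      have hb := hbest S hne
      have hcard : (Fintype.card (Fin q × ι) : ℝ) ≤ ((q * (2 * n + 1) : ℕ) : ℝ) ^ K := by
        rw [Fintype.card_prod, Fintype.card_fin]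
        have h7 : q * Fintype.card ι ≤ (q * (2 * n + 1)) ^ K := by
          calc q * Fintype.card ι ≤ q * (q * (2 * n + 1)) ^ d := by gcongr
            _ ≤ (q * (2 * n + 1)) * (q * (2 * n + 1)) ^ d := by
                refine Nat.mul_le_mul_right _ ?_
                exact Nat.le_mul_of_pos_right _ (by omega)
            _ = (q * (2 * n + 1)) ^ (d + 1) := by ring
            _ ≤ (q * (2 * n + 1)) ^ K := Nat.pow_le_pow_right hM (by omega)
        exact_mod_cast h7
      have hA0 := F.A0 i S (Gu (best S) (S.sg n))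
      have h8 : F.a i S ≤ lam * ((q * (2 * n + 1) : ℕ) : ℝ) ^ K * F.A i S (Gu (best S) (S.sg n)) := by
        calc F.a i S ≤ lam * F.A i S (G i (S.sg n)) := h5
          _ ≤ lam * (Fintype.card (Fin q × ι) * F.A i S (Gu (best S) (S.sg n))) := mul_le_mul_of_nonneg_left hb hlam
          _ ≤ lam * (((q * (2 * n + 1) : ℕ) : ℝ) ^ K * F.A i S (Gu (best S) (S.sg n))) := by gcongr
          _ = _ := by ring
      have hne' : (Gu (best S) (S.sg n)).Nonempty := by
        rw [Finset.nonempty_iff_ne_empty]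
        intro h0
        rw [h0, A_empty F hiK hS, mul_zero] at h8
        exact absurd h8 (not_le.2 h4)
      refine ⟨h4, ?_, ?_, ?_, ?_⟩
      · simpa using h8
      · simp only [if_true]
        exact Nat.pow_log_le_self 2 hne'.card_pos.ne'
      · simp only [if_true]
        exact Nat.lt_pow_succ_log_self (by norm_num) _
      · intro τ' hτ'
        simp only [if_true] at hτ' ⊢
        have h9 : f (S.sg n) τ' = best S := (Finset.mem_filter.1 hτ').2
        have h10 : τ' ∈ G i (S.sg n) := hGu _ _ hτ'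
        have h11 : ℓ i (S.sg n) τ' = (best S).1 := congrArg Prod.fst h9
        have h12 : typ ((S.sg n).ch F.s n i τ') = (best S).2 := congrArg Prod.snd h9
        refine ⟨h11, ?_⟩
        have h13 := h3 ((S.sg n).ch F.s n i τ') (by rw [ch_τ]; exact Cap_kids hS (hG i (S.sg n) h10)) (h6 τ' h10)
        rw [h12] at h13
        refine Vld_congr F d (i + 1) _ ?_ ?_ ?_ h13
        · intro k hk
          rw [if_neg (by omega)]
        · intro k hk
          rw [if_neg (by omega)]
        · intro k hk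
          rw [if_neg (by omega)]

end Vale.Agent.P106.R.H428
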