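import Vale.Agent.P106.R.C.Val
import Vale.Agent.P106.R.C.Thin
import Vale.Agent.P106.R.H428.Ref
import Vale.Agent.P106.R.C.Pw
import Vale.Agent.P106.R.C.Bx

/-!
# P106 / R, copy of P122 / H428 : initial valid structure (block C-V0)

`exists_val` : from multiscale amplitudes `F` with `F.a K S ≤ μ` and a finite set `X` of cells of level `0` there is a valid
structure `V` with loss `1 / (2 (q (2n+1))^K)` and `∑ X, a₀³ ≤ c μ³ + q (q (2n+1))^K ∑ V.X, a₀³`,
`q ≤ 6 K n + K c₀ + 1`.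
-/

set_option autoImplicit false

namespace Vale.Agent.P106.R.H428

open Vale.Agent.P106.R.C2 Finset

variable {C : ℝ} {n K : ℕ}

/-- upper bound of the amplitudes -/
theorem a_le (F : Amp C n K) (hC : 1 ≤ C) {μ : ℝ} (hμ : ∀ S, F.a K S ≤ μ) (d : ℕ) : ∀ i, i + d = K →
    ∀ S : Nd, Cap n i S.τ → F.a i S ≤ (C * 2 ^ (2 * n)) ^ d * μ := by
  induction d with
  | zero =>
    intro i hi S _
    have : i = K := by omega
    subst this
    simpa using hμ S
  | succ d ih =>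
    intro i hi S hS
    have hiK : i < K := by omega
    have h1 := F.kid i S hiK hS
    have h2 := F.L1 i S (kids n S.τ) hiK hS subset_rfl
    have h3 : ∑ τ' ∈ kids n S.τ, F.a (i + 1) ((S.sg n).ch F.s n i τ') ≤
        (kids n S.τ).card • ((C * 2 ^ (2 * n)) ^ d * μ) := by
      refine Finset.sum_le_card_nsmul _ _ _ fun τ' hτ => ?_
      exact ih (i + 1) (by omega) _ (by rw [ch_τ]; exact Cap_kids hS hτ)
    rw [kids_card, nsmul_eq_mul] at h3
    push_cast at h3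
    calc F.a i S ≤ C * ∑ τ' ∈ kids n S.τ, F.a (i + 1) ((S.sg n).ch F.s n i τ') := h1.trans h2
      _ ≤ C * (2 ^ (2 * n) * ((C * 2 ^ (2 * n)) ^ d * μ)) := mul_le_mul_of_nonneg_left h3 (by linarith)
      _ = (C * 2 ^ (2 * n)) ^ (d + 1) * μ := by ring

/-- bound of the offsets of the nodes with positive amplitude -/
noncomputable def rad (C : ℝ) (n K : ℕ) : ℕ → ℝ
  | 0 => C * 2 ^ (K * n)
  | d + 1 => 2 ^ n * (rad C n K d + 2 + 2 ^ ((K - d) * n))

theorem rad_le (d : ℕ) (hd : d ≤ K) : rad C n K d ≤ (C + 3 * d) * 2 ^ ((K + d) * n) := by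
  induction d with
  | zero => unfold rad; simp
  | succ d ih =>
    have h1 := ih (by omega)
    unfold rad
    have e1 : (2:ℝ) ^ ((K + (d + 1)) * n) = 2 ^ n * 2 ^ ((K + d) * n) := by rw [← pow_add]; ring_nf
    have h2 : (2:ℝ) ^ ((K - d) * n) ≤ 2 ^ ((K + d) * n) :=
      pow_le_pow_right₀ (by norm_num) (Nat.mul_le_mul_right _ (by omega))
    have h3 : (1:ℝ) ≤ 2 ^ ((K + d) * n) := one_le_pow₀ (by norm_num)
    rw [e1]
    push_cast
    have h4 : rad C n K d + 2 + 2 ^ ((K - d) * n) ≤ (C + 3 * (d + 1)) * 2 ^ ((K + d) * n) := by nlinarith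
    calc (2:ℝ) ^ n * (rad C n K d + 2 + 2 ^ ((K - d) * n)) ≤ 2 ^ n * ((C + 3 * (d + 1)) * 2 ^ ((K + d) * n)) :=
          mul_le_mul_of_nonneg_left h4 (by positivity)
      _ = _ := by ring

theorem o_bd (F : Amp C n K) (d : ℕ) : ∀ i, i + d = K → ∀ S : Nd, Cap n i S.τ → F.a i S ≠ 0 →
    ∀ k, |(S.o k : ℝ)| ≤ rad C n K d := by
  induction d with
  | zero =>
    intro i hi S _ ha k
    have : i = K := by omega
    subst this
    unfold rad
    exact (F.supp S ha).2.2 k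
  | succ d ih =>
    intro i hi S hS ha k
    have hiK : i < K := by omega
    have h1 := F.kid i S hiK hS
    have h2 := F.L1 i S (kids n S.τ) hiK hS subset_rfl
    -- a child with positive amplitude
    obtain ⟨τ', hτ, hne⟩ : ∃ τ' ∈ kids n S.τ, F.a (i + 1) ((S.sg n).ch F.s n i τ') ≠ 0 := by
      by_contra hcon
      push Not at hcon
      rw [Finset.sum_eq_zero hcon, mul_zero] at h2
      exact ha (le_antisymm (h1.trans h2) (F.a0 _ _))
    have hcap : Cap n (i + 1) τ' := Cap_kids hS hτ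
    have h3 := ih (i + 1) (by omega) ((S.sg n).ch F.s n i τ') (by rw [ch_τ]; exact hcap) hne k
    -- the offset of the child
    set m : ℤ := S.o k / 2 ^ n with hm
    set w : ℝ := ((S.T % 2 ^ (2 * n) : ℤ) : ℝ) * 2 ^ (2 * i * n) * F.s (i + 1) τ' k / 2 ^ ((i + 1) * n) with hw
    have h4 : (((S.sg n).ch F.s n i τ').o k : ℝ) = ⌊(m : ℝ) - w⌋ := rfl
    rw [h4] at h3
    have h5 := Int.floor_le ((m:ℝ) - w)
    have h6 := (Int.lt_floor_add_one ((m:ℝ) - w)).le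
    have h7 : |w| ≤ 2 ^ ((i + 1) * n) := by
      have e1 : (0:ℤ) ≤ S.T % 2 ^ (2 * n) := Int.emod_nonneg _ (by positivity)
      have e2 : S.T % 2 ^ (2 * n) < 2 ^ (2 * n) := Int.emod_lt_of_pos _ (by positivity)
      have e3 : (0:ℝ) ≤ ((S.T % 2 ^ (2 * n) : ℤ) : ℝ) := by exact_mod_cast e1
      have e4 : ((S.T % 2 ^ (2 * n) : ℤ) : ℝ) ≤ 2 ^ (2 * n) := by exact_mod_cast e2.le
      have e5 := F.slp.bd (i + 1) τ' k (by omega) hcap
      rw [hw, abs_div, abs_mul, abs_mul, abs_of_nonneg e3, abs_of_pos (by positivity : (0:ℝ) < 2 ^ (2 * i * n)),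
        abs_of_pos (by positivity : (0:ℝ) < 2 ^ ((i + 1) * n)), div_le_iff₀ (by positivity)]
      calc ((S.T % 2 ^ (2 * n) : ℤ) : ℝ) * 2 ^ (2 * i * n) * |F.s (i + 1) τ' k| ≤ 2 ^ (2 * n) * 2 ^ (2 * i * n) * 1 := by
            gcongr
        _ = 2 ^ ((i + 1) * n) * 2 ^ ((i + 1) * n) := by
            rw [mul_one, ← pow_add, ← pow_add]
            ring_nf
    have h8 : |(m:ℝ)| ≤ rad C n K d + 1 + 2 ^ ((i + 1) * n) := by
      rw [abs_le] at h3 h7 ⊢
      constructor <;> linarith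
    have h9 : (2:ℤ) ^ n * m ≤ S.o k := Int.mul_ediv_self_le (by positivity)
    have h10 : S.o k < 2 ^ n * m + 2 ^ n := by
      have := Int.lt_ediv_add_one_mul_self (S.o k) (by positivity : (0:ℤ) < 2 ^ n)
      rw [← hm] at this
      linarith
    have h9' : (2:ℝ) ^ n * m ≤ S.o k := by exact_mod_cast h9
    have h10' : (S.o k : ℝ) ≤ 2 ^ n * m + 2 ^ n := by exact_mod_cast h10.le
    have hKd : (i + 1) = K - d := by omega
    unfold rad
    rw [← hKd]
    have h11 : (0:ℝ) < 2 ^ n := by positivity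
    rw [abs_le] at h8 ⊢
    constructor
    · nlinarith [h8.1]
    · nlinarith [h8.2]

theorem w_bd (F : Amp C n K) (hC : 0 ≤ C) (d : ℕ) : ∀ i, i + d = K → ∀ S : Nd, Cap n i S.τ → F.a i S ≠ 0 →
    0 ≤ S.T ∧ S.T < 2 ^ (2 * d * n) ∧ |(S.w : ℝ)| ≤ (C + d * (C * (2 * (C + 3 * K) + 4))) * 2 ^ (2 * K * n) := by
  induction d with
  | zero =>
    intro i hi S _ ha
    have : i = K := by omega
    subst this
    obtain ⟨k1, -, -⟩ := F.supp S ha
    refine ⟨by rw [k1], by rw [k1]; simp, ?_⟩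
    have h3 : (1 : ℝ) ≤ 2 ^ (F.s.h * n) := one_le_pow₀ (by norm_num)
    have h4 : |(S.w : ℝ)| ≤ |(S.w : ℝ)| * 2 ^ (F.s.h * n) := le_mul_of_one_le_right (abs_nonneg _) h3
    simpa using h4.trans (F.suppw S ha)
  | succ d ih =>
    intro i hi S hS ha
    have hiK : i < K := by omega
    have h1 := F.kid i S hiK hS
    have h2 := F.L1 i S (kids n S.τ) hiK hS subset_rfl
    obtain ⟨τ', hτ, hne⟩ : ∃ τ' ∈ kids n S.τ, F.a (i + 1) ((S.sg n).ch F.s n i τ') ≠ 0 := by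
      by_contra hcon
      push Not at hcon
      rw [Finset.sum_eq_zero hcon, mul_zero] at h2
      exact ha (le_antisymm (h1.trans h2) (F.a0 _ _))
    have hcap : Cap n (i + 1) τ' := Cap_kids hS hτ
    obtain ⟨k1, k2, k3⟩ := ih (i + 1) (by omega) ((S.sg n).ch F.s n i τ') (by rw [ch_τ]; exact hcap) hne
    have hT : ((S.sg n).ch F.s n i τ').T = S.T / 2 ^ (2 * n) := rfl
    rw [hT] at k1 k2
    have h2n : (0 : ℤ) < 2 ^ (2 * n) := by positivity
    have g1 : 0 ≤ S.T := by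
      by_contra hneg
      push Not at hneg
      have := Int.ediv_neg_of_neg_of_pos hneg h2n
      omega
    have g2 : S.T < 2 ^ (2 * (d + 1) * n) := by
      have h3 : S.T / 2 ^ (2 * n) + 1 ≤ 2 ^ (2 * d * n) := k2
      have h4 := Int.lt_ediv_add_one_mul_self S.T h2n
      calc S.T < (S.T / 2 ^ (2 * n) + 1) * 2 ^ (2 * n) := h4
        _ ≤ 2 ^ (2 * d * n) * 2 ^ (2 * n) := mul_le_mul_of_nonneg_right h3 h2n.le
        _ = 2 ^ (2 * (d + 1) * n) := by rw [← pow_add]; congr 1; ring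
    refine ⟨g1, g2, ?_⟩
    have hdK : (d : ℝ) + 1 ≤ K := by exact_mod_cast (show d + 1 ≤ K by omega)
    have h5 := w_step (F := F) hC (B := C + 3 * K) (i := i) (m := d) (by omega) hS hτ g1 g2 (fun k => ?_)
    · refine h5.trans ?_
      push_cast
      calc _ ≤ (C + d * (C * (2 * (C + 3 * K) + 4))) * 2 ^ (2 * K * n) + C * (2 * (C + 3 * K) + 4) * 2 ^ (2 * K * n) := by
            linarith
        _ = _ := by ring
    · refine (o_bd F (d + 1) i hi S hS ha k).trans ((rad_le (d + 1) (by omega)).trans ?_)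
      refine mul_le_mul_of_nonneg_right ?_ (by positivity)
      push_cast
      linarith

/-- constant of the number of starting nodes -/
noncomputable def cx (C : ℝ) (K : ℕ) : ℝ := (2 * (C + 3 * K) + 1) ^ 2 * (2 * wc C K + 1)

theorem cx_pos {C : ℝ} {K : ℕ} (hC : 0 ≤ C) : 0 < cx C K := by
  have := wc_nonneg (C := C) (K := K) hC
  unfold cx
  positivity

/-- number of cells of level `0` with positive amplitude -/
theorem card_pos (F : Amp C n K) (hC : 1 ≤ C) (X : Finset Nd) (hX : ∀ x ∈ X, x.τ = 0 ∧ 0 ≤ x.T ∧ x.T < 2 ^ (2 * K * n))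
    (ha : ∀ x ∈ X, F.a 0 x ≠ 0) : (X.card : ℝ) ≤ cx C K * 2 ^ (8 * K * n) := by
  classical
  have hC0 : 0 ≤ C := by linarith
  have hwc := wc_nonneg (C := C) (K := K) hC0
  set R : ℝ := (C + 3 * K) * 2 ^ (2 * K * n) with hR
  have hR0 : 0 ≤ R := by rw [hR]; positivity
  set W : ℝ := wc C K * 2 ^ (2 * K * n) with hW
  have hW0 : 0 ≤ W := by rw [hW]; positivity
  have hb : ∀ x ∈ X, ∀ k, |(x.o k : ℝ)| ≤ R := by
    intro x hx k
    have h1 := o_bd F K 0 (by omega) x (cap_zero (hX x hx).1) (ha x hx) k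
    have h2 := rad_le (C := C) (n := n) (K := K) K le_rfl
    have e : (K + K) * n = 2 * K * n := by ring
    rw [e] at h2
    exact h1.trans h2
  have hbw : ∀ x ∈ X, |(x.w : ℝ)| ≤ W := by
    intro x hx
    exact (w_bd F hC0 K 0 (by omega) x (cap_zero (hX x hx).1) (ha x hx)).2.2
  let N : ℤ := ⌊R⌋
  have hN0 : 0 ≤ N := Int.floor_nonneg.2 hR0
  let N' : ℤ := ⌊W⌋
  have hN0' : 0 ≤ N' := Int.floor_nonneg.2 hW0
  have hinj : X.card ≤ (((Finset.Icc (-N) N ×ˢ Finset.Icc (-N) N) ×ˢ Finset.Ico (0:ℤ) (2 ^ (2 * K * n))) ×ˢ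
      Finset.Icc (-N') N').card := by
    refine Finset.card_le_card_of_injOn (fun x : Nd => (((x.o 0, x.o 1), x.T), x.w)) ?_ ?_
    · intro x hx
      have h1 : ∀ k, -N ≤ x.o k ∧ x.o k ≤ N := by
        intro k
        have h2 := abs_le.1 (hb x hx k)
        constructor
        · have : -x.o k ≤ N := Int.le_floor.2 (by push_cast; linarith [h2.1])
          linarith
        · exact Int.le_floor.2 h2.2
      have h1' : -N' ≤ x.w ∧ x.w ≤ N' := by
        have h2 := abs_le.1 (hbw x hx)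
        constructor
        · have : -x.w ≤ N' := Int.le_floor.2 (by push_cast; linarith [h2.1])
          linarith
        · exact Int.le_floor.2 h2.2
      have h3 := hX x hx
      simp only [Finset.coe_product, Set.mem_prod, Finset.mem_coe, Finset.mem_Icc, Finset.mem_Ico]
      exact ⟨⟨⟨h1 0, h1 1⟩, h3.2.1, h3.2.2⟩, h1'⟩
    · intro x hx y hy e
      simp only [Prod.mk.injEq] at e
      refine Nd.ext (by rw [(hX x hx).1, (hX y hy).1]) ?_ e.1.2 e.2
      funext k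
      fin_cases k
      · exact e.1.1.1
      · exact e.1.1.2
  rw [Finset.card_product, Finset.card_product, Finset.card_product, Int.card_Icc, Int.card_Icc, Int.card_Ico] at hinj
  have hcI : ∀ A : ℤ, ∀ B : ℝ, 0 ≤ A → (A : ℝ) ≤ B → (((A + 1 - -A).toNat : ℕ) : ℝ) ≤ 2 * B + 1 := by
    intro A B hA hAB
    have e1 : (((A + 1 - -A).toNat : ℕ) : ℤ) = 2 * A + 1 := by
      rw [Int.toNat_of_nonneg (by linarith)]
      ring
    have e2 : (((A + 1 - -A).toNat : ℕ) : ℝ) = 2 * A + 1 := by exact_mod_cast e1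
    rw [e2]
    linarith
  have h1 := hcI N R hN0 (Int.floor_le R)
  have h1' := hcI N' W hN0' (Int.floor_le W)
  have h2 : ((((2:ℤ) ^ (2 * K * n) - 0).toNat : ℕ) : ℝ) = 2 ^ (2 * K * n) := by
    have e1 : ((((2:ℤ) ^ (2 * K * n) - 0).toNat : ℕ) : ℤ) = 2 ^ (2 * K * n) := by
      rw [Int.toNat_of_nonneg (by simp)]
      ring
    exact_mod_cast e1
  have h3 : (X.card : ℝ) ≤ ((N + 1 - -N).toNat : ℕ) * ((N + 1 - -N).toNat : ℕ) * ((((2:ℤ) ^ (2 * K * n) - 0).toNat : ℕ) : ℝ) *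
      ((N' + 1 - -N').toNat : ℕ) := by
    exact_mod_cast hinj
  rw [h2] at h3
  have h4 : (1:ℝ) ≤ 2 ^ (2 * K * n) := one_le_pow₀ (by norm_num)
  have h5 : 2 * R + 1 ≤ (2 * (C + 3 * K) + 1) * 2 ^ (2 * K * n) := by
    rw [hR]
    nlinarith
  have h5' : 2 * W + 1 ≤ (2 * wc C K + 1) * 2 ^ (2 * K * n) := by
    rw [hW]
    nlinarith
  calc (X.card : ℝ) ≤ ((N + 1 - -N).toNat : ℕ) * ((N + 1 - -N).toNat : ℕ) * (2:ℝ) ^ (2 * K * n) * ((N' + 1 - -N').toNat : ℕ) := h3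
    _ ≤ (2 * R + 1) * (2 * R + 1) * 2 ^ (2 * K * n) * (2 * W + 1) := by gcongr
    _ ≤ ((2 * (C + 3 * K) + 1) * 2 ^ (2 * K * n)) * ((2 * (C + 3 * K) + 1) * 2 ^ (2 * K * n)) * 2 ^ (2 * K * n) *
        ((2 * wc C K + 1) * 2 ^ (2 * K * n)) := by
        gcongr
    _ = cx C K * 2 ^ (8 * K * n) := by
        have : (8 * K * n) = 2 * K * n + 2 * K * n + 2 * K * n + 2 * K * n := by ring
        rw [this, pow_add, pow_add, pow_add]
        unfold cx
        ring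

/-! ### amplitude classes -/

/-- dyadic class of `v` relative to the base `b` -/
noncomputable def cls (b v : ℝ) : ℕ := Nat.log 2 ⌊v / b⌋₊

theorem cls_spec {b v : ℝ} (hb : 0 < b) (hv : b ≤ v) : b * 2 ^ cls b v ≤ v ∧ v < b * 2 ^ (cls b v + 1) := by
  have h1 : 1 ≤ v / b := (one_le_div hb).2 hv
  have h2 : 1 ≤ ⌊v / b⌋₊ := Nat.le_floor (by simpa using h1)
  have h3 : 2 ^ cls b v ≤ ⌊v / b⌋₊ := Nat.pow_log_le_self 2 (by omega)
  have h4 : ⌊v / b⌋₊ < 2 ^ (cls b v + 1) := Nat.lt_pow_succ_log_self (by norm_num) _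
  have h5 : (⌊v / b⌋₊ : ℝ) ≤ v / b := Nat.floor_le (by linarith)
  have h6 : ((2 ^ cls b v : ℕ) : ℝ) ≤ ⌊v / b⌋₊ := by exact_mod_cast h3
  have h7 : v / b < ((2 ^ (cls b v + 1) : ℕ) : ℝ) := by
    have e1 := Nat.lt_floor_add_one (v / b)
    have e2 : ((⌊v / b⌋₊ : ℕ) : ℝ) + 1 ≤ ((2 ^ (cls b v + 1) : ℕ) : ℝ) := by exact_mod_cast h4
    linarith
  push_cast at h6 h7
  constructor
  · have := h6.trans h5
    rw [le_div_iff₀ hb] at this
    linarith
  · rw [div_lt_iff₀ hb] at h7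
    linarith

theorem cls_le {b v : ℝ} {N : ℕ} (hb : 0 < b) (hN : v ≤ b * 2 ^ N) : cls b v ≤ N := by
  unfold cls
  have h1 : v / b ≤ ((2 ^ N : ℕ) : ℝ) := by
    push_cast
    rw [div_le_iff₀ hb]
    linarith
  have h2 : ⌊v / b⌋₊ ≤ 2 ^ N := by
    have := Nat.floor_mono h1
    rwa [Nat.floor_natCast] at this
  have h3 := Nat.log_mono_right (b := 2) h2
  rwa [Nat.log_pow (by norm_num)] at h3

/-- the children with a large amplitude -/
noncomputable def big (F : Amp C n K) (b : ℕ → ℝ) (i : ℕ) (σ : Nd) : Finset Z2 := by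
  classical
  exact (kids n σ.τ).filter fun τ' => b (i + 1) ≤ F.a (i + 1) (σ.ch F.s n i τ')

theorem big_sub (F : Amp C n K) (b : ℕ → ℝ) (i : ℕ) (σ : Nd) : big F b i σ ⊆ kids n σ.τ := by
  classical
  exact Finset.filter_subset _ _

theorem mem_big {F : Amp C n K} {b : ℕ → ℝ} {i : ℕ} {σ : Nd} {τ' : Z2} :
    τ' ∈ big F b i σ ↔ τ' ∈ kids n σ.τ ∧ b (i + 1) ≤ F.a (i + 1) (σ.ch F.s n i τ') := by
  classical
  exact Finset.mem_filter

/-- the large children carry the amplitude -/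
theorem big_amp (F : Amp C n K) (hC : 1 ≤ C) {b : ℕ → ℝ} (hb0 : ∀ i, 0 < b i)
    (hb : ∀ i, 2 * C * 2 ^ (2 * n) * b (i + 1) ≤ b i) {i : ℕ} (hi : i < K) {S : Nd} (hS : Cap n i S.τ)
    (ha : b i ≤ F.a i S) : F.a i S ≤ 2 * F.A i S (big F b i (S.sg n)) := by
  classical
  have h1 := F.kid i S hi hS
  have e : kids n S.τ = big F b i (S.sg n) ∪ (kids n S.τ \ big F b i (S.sg n)) :=
    (Finset.union_sdiff_of_subset (big_sub F b i (S.sg n))).symm
  have h2 := F.tri i S (big F b i (S.sg n)) (kids n S.τ \ big F b i (S.sg n)) hi Finset.disjoint_sdiff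
  rw [← e] at h2
  have h3 := F.L1 i S (kids n S.τ \ big F b i (S.sg n)) hi hS Finset.sdiff_subset
  have h4 : ∑ τ' ∈ kids n S.τ \ big F b i (S.sg n), F.a (i + 1) ((S.sg n).ch F.s n i τ') ≤
      (kids n S.τ \ big F b i (S.sg n)).card • b (i + 1) := by
    refine Finset.sum_le_card_nsmul _ _ _ fun τ' hτ => ?_
    rw [Finset.mem_sdiff, mem_big] at hτ
    by_contra hcon
    exact hτ.2 ⟨hτ.1, (not_le.1 hcon).le⟩
  rw [nsmul_eq_mul] at h4
  have h5 : ((kids n S.τ \ big F b i (S.sg n)).card : ℝ) ≤ 2 ^ (2 * n) := by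
    have : (kids n S.τ \ big F b i (S.sg n)).card ≤ 2 ^ (2 * n) := by
      rw [← kids_card n S.τ]
      exact Finset.card_le_card Finset.sdiff_subset
    exact_mod_cast this
  have h6 : C * ∑ τ' ∈ kids n S.τ \ big F b i (S.sg n), F.a (i + 1) ((S.sg n).ch F.s n i τ') ≤
      C * (2 ^ (2 * n) * b (i + 1)) := by
    refine mul_le_mul_of_nonneg_left (h4.trans ?_) (by linarith)
    exact mul_le_mul_of_nonneg_right h5 (hb0 _).le
  have h7 := hb i
  have h8 : C * (2 ^ (2 * n) * b (i + 1)) ≤ b i / 2 := by linarith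
  linarith

/-- the large children give `Rch` -/
theorem big_rch (F : Amp C n K) (hC : 1 ≤ C) {b : ℕ → ℝ} (hb0 : ∀ i, 0 < b i)
    (hb : ∀ i, 2 * C * 2 ^ (2 * n) * b (i + 1) ≤ b i) (d : ℕ) : ∀ i, i + d = K → ∀ S : Nd, Cap n i S.τ →
    b i ≤ F.a i S → Rch F 2 (big F b) d i S := by
  induction d with
  | zero => intro i _ S _ _; trivial
  | succ d ih =>
    intro i hi S hS ha
    refine ⟨lt_of_lt_of_le (hb0 i) ha, big_amp F hC hb0 hb (by omega) hS ha, ?_⟩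
    intro τ' hτ
    have h := mem_big.1 hτ
    exact ih (i + 1) (by omega) _ (by rw [ch_τ]; exact Cap_kids hS h.1) h.2

/-- number of classes -/
noncomputable def nq (C : ℝ) (n K : ℕ) : ℕ := K * Nat.clog 2 ⌈2 * C ^ 2⌉₊ + 8 * K * n + 1

theorem exists_val {N : ℝ} (hN : 1 ≤ N) (F : Amp C n K) (hC : 1 ≤ C) {μ : ℝ} (hμ : ∀ S, F.a K S ≤ μ) (hμ0 : 0 < μ)
    (X : Finset Nd) (hX : ∀ x ∈ X, x.τ = 0 ∧ 0 ≤ x.T ∧ x.T < 2 ^ (2 * K * n)) :
    ∃ (V : Val) (a : ℕ → ℝ) (J : ℕ → ℕ), V.X ⊆ X ∧ (∀ i σ, V.G i σ ⊆ kids n σ.τ) ∧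
      V.Ok F (1 / (2 * ((nq C n K * (2 * n + 1) : ℕ) : ℝ) ^ K)) a J ∧
      ∑ x ∈ X, pw N (F.a 0 x) ≤ cx C K * pw N μ +
        ((nq C n K * (2 * n + 1) : ℕ) : ℝ) ^ K * nq C n K * ∑ x ∈ V.X, pw N (F.a 0 x) ∧
      ∃ b : ℝ, 0 < b ∧ ∀ i, i ≤ K → b ≤ a i ∧ a i ≤ b * 2 ^ nq C n K := by
  classical
  set q : ℕ := nq C n K with hq
  have hq1 : 1 ≤ q := by rw [hq]; unfold nq; omega
  set κ : ℝ := 1 / (2 * C * 2 ^ (2 * n)) with hκ
  have hCpos : 0 < C := by linarith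
  have hκ0 : 0 < κ := by rw [hκ]; positivity
  have hκ1 : κ ≤ 1 := by
    rw [hκ, div_le_one (by positivity)]
    have : (1:ℝ) ≤ 2 ^ (2 * n) := one_le_pow₀ (by norm_num)
    nlinarith
  set m : ℝ := μ / 2 ^ (4 * K * n) with hm
  have hm0 : 0 < m := by rw [hm]; positivity
  -- thresholds
  set b : ℕ → ℝ := fun i => m * κ ^ i with hbdef
  have hb0 : ∀ i, 0 < b i := fun i => by rw [hbdef]; positivity
  have hb : ∀ i, 2 * C * 2 ^ (2 * n) * b (i + 1) ≤ b i := by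
    intro i
    have : 2 * C * 2 ^ (2 * n) * b (i + 1) = b i := by
      simp only [hbdef, hκ, pow_succ]
      field_simp
    exact this.le
  have hbK : ∀ i, i ≤ K → b K ≤ b i := by
    intro i hi
    simp only [hbdef]
    exact mul_le_mul_of_nonneg_left (pow_le_pow_of_le_one hκ0.le hκ1 hi) hm0.le
  -- all amplitudes are at most `b K * 2 ^ (q - 1)`
  have htop : ∀ i, i ≤ K → ∀ S : Nd, Cap n i S.τ → F.a i S ≤ b K * 2 ^ (q - 1) := by
    intro i hi S hS
    have h1 := a_le F hC hμ (K - i) i (by omega) S hS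
    have h2 : (C * 2 ^ (2 * n)) ^ (K - i) * μ ≤ (C * 2 ^ (2 * n)) ^ K * μ := by
      refine mul_le_mul_of_nonneg_right (pow_le_pow_right₀ ?_ (by omega)) hμ0.le
      have : (1:ℝ) ≤ 2 ^ (2 * n) := one_le_pow₀ (by norm_num)
      nlinarith
    refine (h1.trans h2).trans ?_
    have h3 : (2 * C ^ 2) ^ K ≤ (2:ℝ) ^ (K * Nat.clog 2 ⌈2 * C ^ 2⌉₊) := by
      rw [mul_comm K, pow_mul]
      refine pow_le_pow_left₀ (by positivity) ?_ K
      have e1 : ⌈2 * C ^ 2⌉₊ ≤ 2 ^ Nat.clog 2 ⌈2 * C ^ 2⌉₊ := Nat.le_pow_clog (by norm_num) _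
      calc 2 * C ^ 2 ≤ (⌈2 * C ^ 2⌉₊ : ℝ) := Nat.le_ceil _
        _ ≤ ((2 ^ Nat.clog 2 ⌈2 * C ^ 2⌉₊ : ℕ) : ℝ) := by exact_mod_cast e1
        _ = _ := by push_cast; ring
    have h4 : q - 1 = K * Nat.clog 2 ⌈2 * C ^ 2⌉₊ + 8 * K * n := by rw [hq]; unfold nq; omega
    rw [h4, pow_add]
    have h5 : b K * ((2:ℝ) ^ (K * Nat.clog 2 ⌈2 * C ^ 2⌉₊) * 2 ^ (8 * K * n)) ≥ b K * ((2 * C ^ 2) ^ K * 2 ^ (8 * K * n)) := by
      have := (hb0 K).le
      gcongr
    refine le_trans (le_of_eq ?_) h5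
    simp only [hbdef, hm, hκ]
    have e2 : (2:ℝ) ^ (8 * K * n) = 2 ^ (4 * K * n) * (2 ^ (2 * n)) ^ K * (2 ^ (2 * n)) ^ K := by
      rw [← pow_mul, ← pow_add, ← pow_add]
      congr 1
      ring
    rw [e2, mul_pow, mul_pow, div_pow, one_pow, mul_pow, mul_pow]
    field_simp
    ring
  -- labels
  have hcl : ∀ v : ℝ, min (cls (b K) v) (q - 1) < q := fun v => by omega
  let ℓ : ℕ → Nd → Z2 → Fin q := fun i σ τ' => ⟨min (cls (b K) (F.a (i + 1) (σ.ch F.s n i τ'))) (q - 1), hcl _⟩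
  obtain ⟨ι, hι, hι', typ, G', c, J, h1, h2, h3⟩ :=
    typing F (by norm_num : (0:ℝ) ≤ 2) ℓ (big F b) (fun i σ => big_sub F b i σ) ⟨0, by omega⟩ K 0 (by omega)
  -- the good cells
  let Xg : Finset Nd := X.filter fun x => b 0 ≤ F.a 0 x
  let lab : Nd → ι × Fin q := fun x => (typ x, ⟨min (cls (b K) (F.a 0 x)) (q - 1), hcl _⟩)
  have hXg : ∀ x ∈ Xg, x ∈ X ∧ b 0 ≤ F.a 0 x := fun x hx => Finset.mem_filter.1 hx
  have hne : Nonempty (ι × Fin q) := ⟨(typ ⟨0, 0, 0, 0⟩, ⟨0, by omega⟩)⟩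
  obtain ⟨⟨u, r⟩, -, hu⟩ := exists_max_image (univ : Finset (ι × Fin q))
    (fun v => ∑ x ∈ Xg.filter fun x => lab x = v, pw N (F.a 0 x)) univ_nonempty
  let V : Val := ⟨Xg.filter fun x => lab x = (u, r), G' u⟩
  let a : ℕ → ℝ := fun i => if i = 0 then b K * 2 ^ (r : ℕ) else b K * 2 ^ ((c u (i - 1) : Fin q) : ℕ)
  have hVX : ∀ x ∈ V.X, x ∈ X ∧ b 0 ≤ F.a 0 x ∧ typ x = u ∧ min (cls (b K) (F.a 0 x)) (q - 1) = r := by
    intro x hx
    have e1 := Finset.mem_filter.1 (show x ∈ Xg.filter fun x => lab x = (u, r) from hx)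
    have e2 := hXg x e1.1
    have e3 := e1.2
    simp only [lab, Prod.mk.injEq] at e3
    exact ⟨e2.1, e2.2, e3.1, congrArg Fin.val e3.2⟩
  have hclass : ∀ i, i ≤ K → ∀ S : Nd, Cap n i S.τ → b K ≤ F.a i S → ∀ j : ℕ, min (cls (b K) (F.a i S)) (q - 1) = j →
      b K * 2 ^ j ≤ F.a i S ∧ F.a i S < 2 * (b K * 2 ^ j) := by
    intro i hi S hS h4 j hj
    have h5 := cls_le (hb0 K) (htop i hi S hS)
    rw [min_eq_left h5] at hj
    have h6 := cls_spec (hb0 K) h4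
    rw [hj] at h6
    refine ⟨h6.1, lt_of_lt_of_le h6.2 (le_of_eq ?_)⟩
    rw [pow_succ]
    ring
  have hreach : ∀ i, i ≤ K → ∀ S ∈ V.D F.s n i, Cap n i S.τ ∧
      Vld F (2 * (q * (2 * n + 1) : ℕ) ^ K) ℓ (G' u) (c u) (J u) (K - i) i S ∧ (a i ≤ F.a i S ∧ F.a i S < 2 * a i) := by
    intro i
    induction i with
    | zero =>
      intro _ S hS
      have hS' : S ∈ V.X := hS
      obtain ⟨g1, g2, g3, g4⟩ := hVX S hS'
      have hcap : Cap n 0 S.τ := cap_zero (hX S g1).1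
      refine ⟨hcap, ?_, ?_⟩
      · have g5 := h3 S hcap (big_rch F hC hb0 hb K 0 (by omega) S hcap g2)
        rw [g3] at g5
        exact g5
      · have g6 := hclass 0 (by omega) S hcap ((hbK 0 (by omega)).trans g2) r g4
        simpa [a] using g6
    | succ i ih =>
      intro hi S' hS'
      rw [Val.mem_D_succ] at hS'
      obtain ⟨S, hS, τ', hτ, rfl⟩ := hS'
      obtain ⟨g1, g2, _⟩ := ih (by omega) S hS
      have hd : K - i = (K - (i + 1)) + 1 := by omega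
      rw [hd] at g2
      obtain ⟨_, _, _, _, g3⟩ := g2
      obtain ⟨g4, g5⟩ := g3 τ' hτ
      have g6 : τ' ∈ big F b i (S.sg n) := h2 u i (S.sg n) hτ
      have g7 := mem_big.1 g6
      have hcap : Cap n (i + 1) τ' := Cap_kids g1 g7.1
      refine ⟨hcap, g5, ?_⟩
      have g8 : min (cls (b K) (F.a (i + 1) ((S.sg n).ch F.s n i τ'))) (q - 1) = (c u i : ℕ) := congrArg Fin.val g4
      have g9 := hclass (i + 1) hi (nx F.s n i S τ') hcap ((hbK (i + 1) hi).trans g7.2) _ g8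
      simpa [a] using g9
  have hM : (0:ℝ) < 2 * ((q * (2 * n + 1) : ℕ) : ℝ) ^ K := by
    have : 0 < q * (2 * n + 1) := by positivity
    positivity
  refine ⟨V, a, J u, fun x hx => (hVX x hx).1, fun i σ => (h2 u i σ).trans (big_sub F b i σ), ?_, ?_, ?_⟩
  · refine ⟨fun x hx => (hX x (hVX x hx).1).1, ?_, ?_, ?_, ?_, ?_⟩
    · intro i _
      by_cases h0 : i = 0
      · simp only [a, h0, if_true]
        have := hb0 K
        positivity
      · simp only [a, h0, if_false]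
        have := hb0 K
        positivity
    · intro i _ S _
      exact (h2 u i (S.sg n)).trans (big_sub F b i (S.sg n))
    · intro i hi S hS
      exact (hreach i hi S hS).2.2
    · intro i hi S hS
      obtain ⟨_, g2, _⟩ := hreach i hi.le S hS
      have hd : K - i = (K - (i + 1)) + 1 := by omega
      rw [hd] at g2
      exact ⟨g2.2.2.1, g2.2.2.2.1⟩
    · intro i hi S hS
      obtain ⟨_, g2, _⟩ := hreach i hi.le S hS
      have hd : K - i = (K - (i + 1)) + 1 := by omega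
      rw [hd] at g2
      have g3 := g2.2.1
      rw [one_div, inv_mul_le_iff₀ hM]
      exact g3
  · -- the sum
    have e1 : ∑ x ∈ X, pw N (F.a 0 x) = ∑ x ∈ Xg, pw N (F.a 0 x) + ∑ x ∈ X.filter (fun x => ¬ b 0 ≤ F.a 0 x), pw N (F.a 0 x) :=
      (Finset.sum_filter_add_sum_filter_not X _ _).symm
    have e2 : ∑ x ∈ X.filter (fun x => ¬ b 0 ≤ F.a 0 x), pw N (F.a 0 x) ≤ cx C K * pw N μ := by
      let Y : Finset Nd := (X.filter fun x => ¬ b 0 ≤ F.a 0 x).filter fun x => F.a 0 x ≠ 0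
      have f1 : ∑ x ∈ X.filter (fun x => ¬ b 0 ≤ F.a 0 x), pw N (F.a 0 x) = ∑ x ∈ Y, pw N (F.a 0 x) := by
        refine (Finset.sum_subset (Finset.filter_subset _ _) ?_).symm
        intro x hx hx'
        have : F.a 0 x = 0 := by
          by_contra hne'
          exact hx' (Finset.mem_filter.2 ⟨hx, hne'⟩)
        rw [this, pw_zero hN]
      have f2 : ∑ x ∈ Y, pw N (F.a 0 x) ≤ Y.card • (pw N m) := by
        refine Finset.sum_le_card_nsmul _ _ _ fun x hx => ?_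
        have g1 := (Finset.mem_filter.1 (Finset.mem_filter.1 hx).1).2
        have g2 : F.a 0 x ≤ m := by
          have := (not_le.1 g1).le
          simpa [hbdef] using this
        exact pw_mono hN (F.a0 _ _) g2
      have f3 : (Y.card : ℝ) ≤ cx C K * 2 ^ (8 * K * n) := by
        refine card_pos F hC Y (fun x hx => hX x (Finset.mem_filter.1 (Finset.mem_filter.1 hx).1).1) fun x hx => ?_
        exact (Finset.mem_filter.1 hx).2
      rw [f1]
      refine f2.trans ?_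
      rw [nsmul_eq_mul]
      have hcx := cx_pos (C := C) (K := K) hCpos.le
      calc (Y.card : ℝ) * pw N m ≤ (cx C K * 2 ^ (8 * K * n)) * pw N m :=
            mul_le_mul_of_nonneg_right f3 (pw_nonneg N hm0.le)
        _ ≤ cx C K * pw N μ := by
            have e5 : (2:ℝ) ^ (8 * K * n) * pw N m ≤ pw N μ := by
              have e6 := pw_div_le (N := N) hN hμ0.le (q := (2:ℝ) ^ (4 * K * n)) (one_le_pow₀ (by norm_num))
              have e7 : ((2:ℝ) ^ (4 * K * n)) ^ 2 = 2 ^ (8 * K * n) := by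
                rw [← pow_mul]
                congr 1
                ring
              rw [e7] at e6
              exact e6
            calc (cx C K * 2 ^ (8 * K * n)) * pw N m = cx C K * (2 ^ (8 * K * n) * pw N m) := by ring
              _ ≤ _ := mul_le_mul_of_nonneg_left e5 hcx.le
    have e3 : ∑ x ∈ Xg, pw N (F.a 0 x) ≤ ((q * (2 * n + 1) : ℕ) : ℝ) ^ K * q * ∑ x ∈ V.X, pw N (F.a 0 x) := by
      have f1 : ∑ x ∈ Xg, pw N (F.a 0 x) = ∑ v : ι × Fin q, ∑ x ∈ Xg.filter fun x => lab x = v, pw N (F.a 0 x) :=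
        (sum_fiberwise Xg lab _).symm
      have f2 := sum_le_card_nsmul (univ : Finset (ι × Fin q)) (fun v => ∑ x ∈ Xg.filter fun x => lab x = v, pw N (F.a 0 x))
        (∑ x ∈ Xg.filter fun x => lab x = (u, r), pw N (F.a 0 x)) fun v hv => hu v hv
      rw [f1]
      refine f2.trans ?_
      rw [nsmul_eq_mul, Finset.card_univ, Fintype.card_prod, Fintype.card_fin]
      have f3 : (0:ℝ) ≤ ∑ x ∈ V.X, pw N (F.a 0 x) := Finset.sum_nonneg fun x _ => pw_nonneg N (F.a0 _ _)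
      have f4 : ((Fintype.card ι * q : ℕ) : ℝ) ≤ ((q * (2 * n + 1) : ℕ) : ℝ) ^ K * q := by
        have : Fintype.card ι * q ≤ (q * (2 * n + 1)) ^ K * q := Nat.mul_le_mul_right _ h1
        exact_mod_cast this
      exact mul_le_mul_of_nonneg_right f4 f3
    rw [e1]
    linarith
  · have hpow : ∀ j : Fin q, b K ≤ b K * 2 ^ (j : ℕ) ∧ b K * 2 ^ (j : ℕ) ≤ b K * 2 ^ q := by
      intro j
      have := hb0 K
      constructor
      · have h4 : (1:ℝ) ≤ 2 ^ (j : ℕ) := one_le_pow₀ (by norm_num)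
        nlinarith
      · exact mul_le_mul_of_nonneg_left (pow_le_pow_right₀ (by norm_num) j.2.le) this.le
    refine ⟨b K, hb0 K, fun i _ => ?_⟩
    by_cases h0 : i = 0
    · simp only [a, h0, if_true]
      exact hpow r
    · simp only [a, h0, if_false]
      exact hpow _

/-! ### with the data of `StCORE` -/

theorem a_sq_le_Q {F : Amp C n K} {Q : ℝ} (hQ : ∀ U : Finset Nd, ∑ S ∈ U, F.a K S ^ 2 ≤ Q) (S : Nd) : F.a K S ^ 2 ≤ Q := by
  have := hQ {S}
  simpa using this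

theorem a_sq_le_Λ {F : Amp C n K} {Λ : ℝ} (hΛ : KTop F Λ) (S : Nd) : F.a K S ^ 2 ≤ Λ := by
  have h := hΛ (ownB n F.s.h K S) {S} (own_ok _ _ _ _) (by
    intro S' hS'
    rw [Finset.mem_singleton] at hS'
    subst hS'
    exact own_In _ _ _ _)
  rw [Finset.sum_singleton, own_vol, mul_one] at h
  exact h

/-- **initial valid structure** with the data of `StCORE` : either the sum is small, or there is a valid structure which
carries it -/
theorem exists_val_top {N : ℝ} (hN : 1 ≤ N) (F : Amp C n K) (hC : 1 ≤ C) {Λ Q : ℝ} (hΛ : KTop F Λ)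
    (hQ : ∀ U : Finset Nd, ∑ S ∈ U, F.a K S ^ 2 ≤ Q)
    (X : Finset Nd) (hX : ∀ x ∈ X, x.τ = 0 ∧ 0 ≤ x.T ∧ x.T < 2 ^ (2 * K * n)) :
    ∃ (V : Val) (a : ℕ → ℝ) (J : ℕ → ℕ), V.X ⊆ X ∧ (∀ i σ, V.G i σ ⊆ kids n σ.τ) ∧
      V.Ok F (1 / (2 * ((nq C n K * (2 * n + 1) : ℕ) : ℝ) ^ K)) a J ∧
      ∑ x ∈ X, pw N (F.a 0 x) ≤ cx C K * (rt N Λ * Q) +
        ((nq C n K * (2 * n + 1) : ℕ) : ℝ) ^ K * nq C n K * ∑ x ∈ V.X, pw N (F.a 0 x) ∧
      ∃ b : ℝ, 0 < b ∧ ∀ i, i ≤ K → b ≤ a i ∧ a i ≤ b * 2 ^ nq C n K := by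
  classical
  have hQ0 : 0 ≤ Q := by simpa using hQ ∅
  have hbdd : BddAbove (Set.range (F.a K)) := by
    refine ⟨Real.sqrt Q, ?_⟩
    rintro _ ⟨S, rfl⟩
    exact Real.le_sqrt_of_sq_le (a_sq_le_Q hQ S)
  set μ : ℝ := sSup (Set.range (F.a K)) with hμdef
  have hμ : ∀ S, F.a K S ≤ μ := fun S => le_csSup hbdd ⟨S, rfl⟩
  have hμ0 : 0 ≤ μ := (F.a0 K ⟨0, 0, 0, 0⟩).trans (hμ _)
  have hμΛ : μ ≤ Real.sqrt Λ := csSup_le ⟨_, ⟨0, 0, 0, 0⟩, rfl⟩ (by
    rintro _ ⟨S, rfl⟩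
    exact Real.le_sqrt_of_sq_le (a_sq_le_Λ hΛ S))
  have hμQ : μ ^ 2 ≤ Q := by
    have h1 : μ ≤ Real.sqrt Q := csSup_le ⟨_, ⟨0, 0, 0, 0⟩, rfl⟩ (by
      rintro _ ⟨S, rfl⟩
      exact Real.le_sqrt_of_sq_le (a_sq_le_Q hQ S))
    calc μ ^ 2 ≤ Real.sqrt Q ^ 2 := pow_le_pow_left₀ hμ0 h1 2
      _ = Q := Real.sq_sqrt hQ0
  have hΛ0 : 0 ≤ Λ := (sq_nonneg _).trans (a_sq_le_Λ hΛ ⟨0, 0, 0, 0⟩)
  have hμΛ' : μ ^ 2 ≤ Λ := by
    calc μ ^ 2 ≤ Real.sqrt Λ ^ 2 := pow_le_pow_left₀ hμ0 hμΛ 2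
      _ = Λ := Real.sq_sqrt hΛ0
  have h3 : pw N μ ≤ rt N Λ * Q :=
    (pw_le hN hμ0 hμΛ').trans (mul_le_mul_of_nonneg_left hμQ (rt_nonneg N hΛ0))
  rcases hμ0.eq_or_lt with h0 | h0
  · -- everything vanishes
    refine ⟨⟨∅, fun _ _ => ∅⟩, fun _ => 1, fun _ => 0, Finset.empty_subset _, fun _ _ => Finset.empty_subset _, ?_, ?_, ?_⟩
    · have hD : ∀ i, (⟨∅, fun _ _ => ∅⟩ : Val).D F.s n i = ∅ := by
        intro i
        induction i with
        | zero => rfl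
        | succ i ih => simp [Val.D, ih]
      refine ⟨fun x hx => absurd hx (Finset.notMem_empty x), fun _ _ => one_pos, ?_, ?_, ?_, ?_⟩
      all_goals
        intro i _ S hS
        rw [hD] at hS
        exact absurd hS (Finset.notMem_empty S)
    · have hz : ∑ x ∈ X, pw N (F.a 0 x) = 0 := by
        refine Finset.sum_eq_zero fun x hx => ?_
        have h1 := a_le F hC hμ K 0 (by omega) x (cap_zero (hX x hx).1)
        rw [← h0, mul_zero] at h1
        rw [le_antisymm h1 (F.a0 _ _), pw_zero hN]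
      rw [hz]
      have : (0:ℝ) ≤ rt N Λ * Q := mul_nonneg (rt_nonneg N hΛ0) hQ0
      simp only [Finset.sum_empty, mul_zero, add_zero]
      exact mul_nonneg (cx_pos (by linarith)).le this
    · exact ⟨1, one_pos, fun i _ => ⟨le_rfl, by rw [one_mul]; exact one_le_pow₀ (by norm_num)⟩⟩
  · obtain ⟨V, a, J, g1, g2, g3, g4, g5⟩ := exists_val hN F hC hμ h0 X hX
    refine ⟨V, a, J, g1, g2, g3, g4.trans ?_, g5⟩
    have h5 : cx C K * pw N μ ≤ cx C K * (rt N Λ * Q) :=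
      mul_le_mul_of_nonneg_left h3 (cx_pos (by linarith)).le
    linarith

end Vale.Agent.P106.R.H428
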